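import Vale.Agent.P011.E6O.H68.Split

/-!
Linear maps of a split quaternion algebra which respect products up to left and right factors.
-/

namespace Vale.Agent.P011.D4T.H547

open Vale.Agent.P011.MPQ Vale.Agent.P011.D4 Vale.Agent.P011.D4.Oct Vale.Agent.P011.E6

variable {F : Type} [Field F] {a b : Fˣ}

theorem mul_star_q (x : Qt a b) : x * star x = nrd x • (1 : Qt a b) := by
  ext <;> simp [nrd] <;> ring

theorem star_mul_q (x : Qt a b) : star x * x = nrd x • (1 : Qt a b) := by
  ext <;> simp [nrd] <;> ring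

theorem nrd_star_q (x : Qt a b) : nrd (star x) = nrd x := by simp [nrd]

theorem nrd_smul_q (t : F) (x : Qt a b) : nrd (t • x) = t ^ 2 * nrd x := by
  simp [nrd]
  ring

theorem star_smul_q (t : F) (x : Qt a b) : star (t • x) = t • star x := by
  ext <;> simp

theorem nrd_ne_of_mul {x y : Qt a b} (h : x * y = 1) : nrd x ≠ 0 := by
  intro h0
  have h1 := congrArg nrd h
  rw [nrd_mul, h0, zero_mul, nrd_one] at h1
  exact zero_ne_one h1

/-- The inverse of a quaternion. -/
def qi (x : Qt a b) : Qt a b := (nrd x)⁻¹ • star x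

theorem mul_qi {x : Qt a b} (h : nrd x ≠ 0) : x * qi x = 1 := by
  rw [qi, mul_smul_comm, mul_star_q, smul_smul, inv_mul_cancel₀ h, one_smul]

theorem qi_mul {x : Qt a b} (h : nrd x ≠ 0) : qi x * x = 1 := by
  rw [qi, smul_mul_assoc, star_mul_q, smul_smul, inv_mul_cancel₀ h, one_smul]

theorem nrd_qi {x : Qt a b} (h : nrd x ≠ 0) : nrd (qi x) ≠ 0 := nrd_ne_of_mul (qi_mul h)

/-- A quaternion which commutes with all quaternions is a scalar. -/
theorem scalar_of_comm (h2 : (2 : F) ≠ 0) {x : Qt a b} (h : ∀ u : Qt a b, x * u = u * x) :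
    ∃ t : F, x = t • (1 : Qt a b) := by
  have ha : (a : F) ≠ 0 := a.ne_zero
  have h1 := h ⟨0, 1, 0, 0⟩
  have h3 := h ⟨0, 0, 1, 0⟩
  have e1 := congrArg QuaternionAlgebra.imJ h1
  have e2 := congrArg QuaternionAlgebra.imK h1
  have e3 := congrArg QuaternionAlgebra.imK h3
  simp only [QuaternionAlgebra.imJ_mul, QuaternionAlgebra.imK_mul] at e1 e2 e3
  have f1 : x.imK = 0 := by
    have : (2 * (a : F)) * x.imK = 0 := by linear_combination -e1
    exact (mul_eq_zero.mp this).resolve_left (mul_ne_zero h2 ha)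
  have f2 : x.imJ = 0 := by
    have : (2 : F) * x.imJ = 0 := by linear_combination -e2
    exact (mul_eq_zero.mp this).resolve_left h2
  have f3 : x.imI = 0 := by
    have : (2 : F) * x.imI = 0 := by linear_combination e3
    exact (mul_eq_zero.mp this).resolve_left h2
  refine ⟨x.re, ?_⟩
  apply QuaternionAlgebra.ext
  · simp
  · simp [f3]
  · simp [f2]
  · simp [f1]

/-- A pair of quaternions whose sandwich is the identity. -/
theorem sandwich (h2 : (2 : F) ≠ 0) {P R : Qt a b} (h : ∀ w : Qt a b, P * w * R = w) :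
    ∃ t : F, t ≠ 0 ∧ P = t • (1 : Qt a b) ∧ R = t⁻¹ • (1 : Qt a b) := by
  have h1 : P * R = 1 := by
    have := h 1
    rwa [mul_one] at this
  have hP := nrd_ne_of_mul h1
  have hR : R = qi P := by
    calc R = qi P * P * R := by rw [qi_mul hP, one_mul]
      _ = qi P := by rw [mul_assoc, h1, mul_one]
  obtain ⟨t, ht⟩ := scalar_of_comm h2 (x := P) fun u => by
    calc P * u = P * u * (R * P) := by rw [hR, qi_mul hP, mul_one]
      _ = P * u * R * P := by rw [mul_assoc (P * u) R P]
      _ = u * P := by rw [h]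
  have ht0 : t ≠ 0 := by
    rintro rfl
    rw [zero_smul] at ht
    rw [ht] at hP
    exact hP (by simp [nrd])
  refine ⟨t, ht0, ht, ?_⟩
  rw [ht, smul_mul_assoc, one_mul] at h1
  rw [← h1, smul_smul, inv_mul_cancel₀ ht0, one_smul]

/-- Automorphisms of a split quaternion algebra are inner. -/
theorem skolem (f : Qt a b ≃ₐ[F] Matrix (Fin 2) (Fin 2) F) (θ : Qt a b ≃ₐ[F] Qt a b) :
    ∃ p : Qt a b, nrd p ≠ 0 ∧ ∀ u, θ u * p = p * u := by
  let e : Qt a b ≃ₐ[F] Module.End F (Fin 2 → F) := f.trans Matrix.toLinAlgEquiv'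
  obtain ⟨T, hT⟩ := AlgEquiv.eq_linearEquivConjAlgEquiv (e.symm.trans (θ.trans e))
  have h1 : ∀ u, e (θ u) = (T : Module.End F (Fin 2 → F)) * e u *
      (T.symm : Module.End F (Fin 2 → F)) := by
    intro u
    have h2 := congrArg (fun g : Module.End F (Fin 2 → F) ≃ₐ[F] Module.End F (Fin 2 → F) =>
      g (e u)) hT
    simp only [AlgEquiv.trans_apply, AlgEquiv.symm_apply_apply] at h2
    rw [h2]
    rfl
  have h3 : (T.symm : Module.End F (Fin 2 → F)) * (T : Module.End F (Fin 2 → F)) = 1 := by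
    apply LinearMap.ext
    intro x
    exact T.symm_apply_apply x
  have h4 : (T : Module.End F (Fin 2 → F)) * (T.symm : Module.End F (Fin 2 → F)) = 1 := by
    apply LinearMap.ext
    intro x
    exact T.apply_symm_apply x
  refine ⟨e.symm (T : Module.End F (Fin 2 → F)), ?_, fun u => ?_⟩
  · apply nrd_ne_of_mul (y := e.symm (T.symm : Module.End F (Fin 2 → F)))
    rw [← map_mul, h4, map_one]
  · apply e.injective
    rw [map_mul, map_mul, AlgEquiv.apply_symm_apply, h1, mul_assoc, h3, mul_one]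

/-- Linear maps which respect products up to factors. -/
theorem autotopy (f : Qt a b ≃ₐ[F] Matrix (Fin 2) (Fin 2) F) (A : Qt a b ≃ₗ[F] Qt a b)
    {A1 A2 : Qt a b → Qt a b} (h : ∀ u v, A (u * v) = A1 u * A2 v) :
    ∃ g h : Qt a b, nrd g ≠ 0 ∧ nrd h ≠ 0 ∧ ∀ u, A u = g * u * h := by
  obtain ⟨u0, hu0⟩ := A.surjective 1
  have e1 : ∀ u, A u = A1 u * A2 1 := fun u => by rw [← h, mul_one]
  have e2 : ∀ u, A u = A1 1 * A2 u := fun u => by rw [← h, one_mul]
  have n2 : nrd (A2 1) ≠ 0 := by
    intro h0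
    have h1 := congrArg nrd (e1 u0)
    rw [hu0, nrd_mul, h0, mul_zero, nrd_one] at h1
    exact one_ne_zero h1
  have n1 : nrd (A1 1) ≠ 0 := by
    have h1 := e2 u0
    rw [hu0] at h1
    exact nrd_ne_of_mul h1.symm
  set m : Qt a b := qi (A2 1) * qi (A1 1) with hm
  have hmn : nrd m ≠ 0 := by
    rw [hm, nrd_mul]
    exact mul_ne_zero (nrd_qi n2) (nrd_qi n1)
  have e3 : ∀ u v, A (u * v) = A u * m * A v := by
    intro u v
    rw [h, e1 u, e2 v, hm]
    calc A1 u * A2 v = A1 u * (A2 1 * qi (A2 1)) * ((qi (A1 1) * A1 1) * A2 v) := by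
          rw [mul_qi n2, qi_mul n1, mul_one, one_mul]
      _ = _ := by simp only [mul_assoc]
  let L : Qt a b ≃ₗ[F] Qt a b :=
    { toFun := fun x => m * x
      invFun := fun x => qi m * x
      left_inv := fun x => by
        change qi m * (m * x) = x
        rw [← mul_assoc, qi_mul hmn, one_mul]
      right_inv := fun x => by
        change m * (qi m * x) = x
        rw [← mul_assoc, mul_qi hmn, one_mul]
      map_add' := fun x y => mul_add _ _ _
      map_smul' := fun t x => mul_smul_comm _ _ _ }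
  have e4 : ∀ u v, (A.trans L) (u * v) = (A.trans L) u * (A.trans L) v := by
    intro u v
    change m * A (u * v) = m * A u * (m * A v)
    rw [e3]
    simp only [mul_assoc]
  have e5 : (A.trans L) 1 = 1 := by
    obtain ⟨w, hw⟩ := (A.trans L).surjective 1
    have h1 := e4 1 w
    rw [one_mul, hw, mul_one] at h1
    exact h1.symm
  let θ : Qt a b ≃ₐ[F] Qt a b := AlgEquiv.ofLinearEquiv (A.trans L) e5 e4
  obtain ⟨p, hp, hθ⟩ := skolem f θ
  refine ⟨qi m * p, qi p, ?_, nrd_qi hp, fun u => ?_⟩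
  · rw [nrd_mul]
    exact mul_ne_zero (nrd_qi hmn) hp
  · have h1 : m * A u * p = p * u := hθ u
    calc A u = qi m * m * A u * (p * qi p) := by
          rw [qi_mul hmn, one_mul, mul_qi hp, mul_one]
      _ = qi m * (m * A u * p) * qi p := by simp only [mul_assoc]
      _ = qi m * p * u * qi p := by rw [h1]; simp only [mul_assoc]

end Vale.Agent.P011.D4T.H547
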